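import Vale.Agent.P120.Improve.Scale.Fields

/-!
# P120: the energy and the tests of a chain seen from its first ball
-/

open MeasureTheory Metric Filter Topology
open scoped RealInnerProductSpace ENNReal NNReal

namespace Vale.Agent.P120

variable {n d : ℕ} {μ : Measure (Sp d)} [Nonempty (Plane n d)]

namespace Along

open Planes

lemma aT_nonneg (p : Sp d) {R : ℝ} (hR : 0 ≤ R) : 0 ≤ aT n μ p R := by
  unfold aT
  split_ifs
  · refine Real.sSup_nonneg ?_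
    rintro _ ⟨e, -, rfl⟩
    positivity
  · exact le_rfl

omit [Nonempty (Plane n d)] in
lemma bT_nonneg (M : ℕ) (p : Sp d) {R : ℝ} (hR : 0 ≤ R) : 0 ≤ bT n μ M p R := by
  refine Real.sSup_nonneg ?_
  rintro _ ⟨φ, -, rfl⟩
  positivity

variable [IsLocallyFiniteMeasure μ] {C₀ : ℝ}

omit [Nonempty (Plane n d)] [IsLocallyFiniteMeasure μ] in
lemma kernel_sq_le (w : Sp d) {e : Sp d} (he : ‖e‖ ≤ 1) :
    ⟪e, w⟫ ^ 2 / ‖w‖ ^ (n + 1) ≤ ‖w‖ / ‖w‖ ^ n := by
  have h : ⟪e, w⟫ ^ 2 ≤ ‖w‖ ^ 2 := by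
    rw [← sq_abs]
    exact pow_le_pow_left₀ (abs_nonneg _)
      ((abs_real_inner_le_norm _ _).trans (mul_le_of_le_one_left (norm_nonneg _) he)) 2
  refine (div_le_div_of_nonneg_right h (by positivity)).trans_eq ?_
  rcases eq_or_ne ‖w‖ 0 with h0 | h0
  · simp [h0]
  · rw [pow_succ ‖w‖ n]; field_simp

omit [Nonempty (Plane n d)] in
/-- The energy along a direction, against a direction close to it. -/
lemma energy_split (hμ : Reg n C₀ μ) {Cg : ℝ}
    (hg : ∀ (x : Sp d) (R : ℝ), 0 < R → IntegrableOn (fun z => ‖x - z‖ / ‖x - z‖ ^ n) (ball x R) μ ∧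
      ∫ z in ball x R, ‖x - z‖ / ‖x - z‖ ^ n ∂μ ≤ Cg * R)
    (p : Sp d) {S : ℝ} (hS : 0 < S) {B : Set (Sp d)} (hBm : MeasurableSet B)
    (hB : B ⊆ ball p (S / 2)) {e u : Sp d} (hu : ‖u‖ ≤ 1) {s T : ℝ} (hs : |s| ≤ 1) (hT : 0 ≤ T)
    (he : ∀ w : Sp d, |⟪e, w⟫| ≤ |s * ⟪u, w⟫| + T * ‖w‖) :
    ∫ y in B, ∫ z in B, ⟪e, y - z⟫ ^ 2 / ‖y - z‖ ^ (n + 1) ∂μ ∂μ ≤
      2 * (∫ y in ball p (S / 2), ∫ z in ball p (S / 2), ⟪u, y - z⟫ ^ 2 / ‖y - z‖ ^ (n + 1) ∂μ ∂μ) +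
        2 * T ^ 2 * (Cg * S * (C₀ * S ^ n)) := by
  set P := ball p (S / 2)
  have hCg : 0 ≤ Cg := by
    have := (setIntegral_nonneg measurableSet_ball (fun z _ => by positivity)).trans (hg p 1 one_pos).2
    linarith
  have hsub : ∀ y ∈ P, P ⊆ ball y S := fun y hy => ball_subset_ball' (by
    linarith [dist_comm p y, mem_ball.1 hy])
  have hi2 : ∀ y ∈ P, IntegrableOn (fun z => ‖y - z‖ / ‖y - z‖ ^ n) P μ :=
    fun y hy => (hg y S hS).1.mono_set (hsub y hy)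
  have hm1 : Measurable fun q : Sp d × Sp d => ⟪u, q.1 - q.2⟫ ^ 2 / ‖q.1 - q.2‖ ^ (n + 1) := by
    fun_prop
  have hi1 : ∀ y ∈ P, IntegrableOn (fun z => ⟪u, y - z⟫ ^ 2 / ‖y - z‖ ^ (n + 1)) P μ := fun y hy =>
    (hi2 y hy).mono' (hm1.comp measurable_prodMk_left).aestronglyMeasurable
      (ae_of_all _ fun z => by
        rw [Real.norm_of_nonneg (by positivity)]; exact kernel_sq_le _ hu)
  have hin : ∀ y ∈ P, ∫ z in B, ⟪e, y - z⟫ ^ 2 / ‖y - z‖ ^ (n + 1) ∂μ ≤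
      2 * (∫ z in P, ⟪u, y - z⟫ ^ 2 / ‖y - z‖ ^ (n + 1) ∂μ) + 2 * T ^ 2 * (Cg * S) := by
    intro y hy
    have hmaj : IntegrableOn (fun z => 2 * (⟪u, y - z⟫ ^ 2 / ‖y - z‖ ^ (n + 1)) +
        2 * T ^ 2 * (‖y - z‖ / ‖y - z‖ ^ n)) P μ :=
      ((hi1 y hy).const_mul 2).add ((hi2 y hy).const_mul _)
    calc ∫ z in B, ⟪e, y - z⟫ ^ 2 / ‖y - z‖ ^ (n + 1) ∂μ
        ≤ ∫ z in B, 2 * (⟪u, y - z⟫ ^ 2 / ‖y - z‖ ^ (n + 1)) +
            2 * T ^ 2 * (‖y - z‖ / ‖y - z‖ ^ n) ∂μ := by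
          refine integral_mono_of_nonneg (ae_of_all _ fun z => by positivity) (hmaj.mono_set hB)
            (ae_of_all _ fun z => ?_)
          set w := y - z
          have h1 : ⟪e, w⟫ ^ 2 ≤ 2 * ⟪u, w⟫ ^ 2 + 2 * T ^ 2 * ‖w‖ ^ 2 := by
            have h2 : |⟪e, w⟫| ≤ |⟪u, w⟫| + T * ‖w‖ := (he w).trans (add_le_add (by
              rw [abs_mul]; exact mul_le_of_le_one_left (abs_nonneg _) hs) le_rfl)
            have h3 := pow_le_pow_left₀ (abs_nonneg _) h2 2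
            rw [sq_abs] at h3
            nlinarith [sq_nonneg (|⟪u, w⟫| - T * ‖w‖), sq_abs ⟪u, w⟫]
          refine (div_le_div_of_nonneg_right h1 (by positivity)).trans_eq ?_
          show _ / ‖w‖ ^ (n + 1) = 2 * (⟪u, w⟫ ^ 2 / ‖w‖ ^ (n + 1)) + 2 * T ^ 2 * (‖w‖ / ‖w‖ ^ n)
          rcases eq_or_ne ‖w‖ 0 with h0 | h0
          · simp [h0]
          · rw [pow_succ ‖w‖ n]; field_simp
      _ ≤ ∫ z in P, 2 * (⟪u, y - z⟫ ^ 2 / ‖y - z‖ ^ (n + 1)) +
            2 * T ^ 2 * (‖y - z‖ / ‖y - z‖ ^ n) ∂μ :=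
          setIntegral_mono_set hmaj (ae_of_all _ fun z => by positivity) hB.eventuallyLE
      _ ≤ _ := by
          rw [integral_add ((hi1 y hy).const_mul 2) ((hi2 y hy).const_mul _), integral_const_mul,
            integral_const_mul]
          refine add_le_add le_rfl (mul_le_mul_of_nonneg_left ?_ (by positivity))
          exact (setIntegral_mono_set (hg y S hS).1 (ae_of_all _ fun z => by positivity)
            (hsub y hy).eventuallyLE).trans (hg y S hS).2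
  set I1 := fun y => ∫ z in P, ⟪u, y - z⟫ ^ 2 / ‖y - z‖ ^ (n + 1) ∂μ
  have hI1 : IntegrableOn I1 P μ := Measure.integrableOn_of_bounded (hμ.fin p _)
    hm1.stronglyMeasurable.integral_prod_right'.aestronglyMeasurable (M := Cg * S)
    ((ae_restrict_iff' measurableSet_ball).2 (ae_of_all _ fun y hy => by
      rw [Real.norm_of_nonneg (integral_nonneg fun z => by positivity)]
      refine (setIntegral_mono_on (hi1 y hy) (hi2 y hy) measurableSet_ball fun z _ =>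
        kernel_sq_le _ hu).trans ?_
      exact (setIntegral_mono_set (hg y S hS).1 (ae_of_all _ fun z => by positivity)
        (hsub y hy).eventuallyLE).trans (hg y S hS).2))
  have hmaj : IntegrableOn (fun y => 2 * I1 y + 2 * T ^ 2 * (Cg * S)) P μ :=
    (hI1.const_mul 2).add (integrableOn_const (hμ.fin p _))
  have hnn : ∀ y, 0 ≤ I1 y := fun y => integral_nonneg fun z => by positivity
  refine (integral_mono_of_nonneg (ae_of_all _ fun y => integral_nonneg fun z => by positivity)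
    (hmaj.mono_set hB) ((ae_restrict_iff' hBm).2 (ae_of_all _ fun y hy => hin y (hB hy)))).trans ?_
  refine (setIntegral_mono_set hmaj (ae_of_all _ fun y => by have := hnn y; positivity)
    hB.eventuallyLE).trans ?_
  rw [integral_add (hI1.const_mul 2) (integrableOn_const (hμ.fin p _)), integral_const_mul,
    setIntegral_const, smul_eq_mul]
  refine add_le_add le_rfl ?_
  rw [mul_comm, mul_assoc]
  refine mul_le_mul_of_nonneg_left (mul_le_mul_of_nonneg_left ((hμ.upper p _ (by positivity)).trans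
    (mul_le_mul_of_nonneg_left (pow_le_pow_left₀ (by positivity) (by linarith) n)
      (zero_le_one.trans hμ.one_le))) (by positivity)) (by positivity)

variable (h : n ≤ d) (hμ : Reg n C₀ μ)
  (hbest : ∀ (p : Sp d) (R : ℝ), 0 < R → IsBest n μ p R (bestPlane (n := n) μ p R))
  {Cb : ℝ} (hfl : ∀ p ∈ μ.support, ∀ R : ℝ, 0 < R →
    0 ≤ flatness n μ p R ∧ flatness n μ p R ≤ Cb)
  {Cg : ℝ} (hgrow : ∀ (x : Sp d) (R : ℝ), 0 < R →
    IntegrableOn (fun z => ‖x - z‖ / ‖x - z‖ ^ n) (ball x R) μ ∧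
      ∫ z in ball x R, ‖x - z‖ / ‖x - z‖ ^ n ∂μ ≤ Cg * R)

include hμ hbest hfl hgrow in
/-- **The energy of the heights.** -/
theorem energy_bound (hK : CaccioppoliSpec n d) {A : ℝ} (hA : 1 ≤ A) :
    ∃ (j : ℕ) (E : ℝ), ∀ c : Chain μ, √8 ^ j * geo n μ c < 1 →
      aT n μ (c.p j) (c.R * 8 ^ j) ≤ geo n μ c ^ 2 → ∀ i : Fin d, n ≤ (i : ℕ) →
        ∫ y in ball 0 A, ∫ z in ball 0 A, (y i - z i) ^ 2 / ‖y - z‖ ^ (n + 1)
          ∂(sim h c).push n μ ∂(sim h c).push n μ ≤ E * geo n μ c ^ 2 := by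
  obtain ⟨j, hj⟩ : ∃ j : ℕ, 5 * (A + 1) ≤ 8 ^ j :=
    (pow_unbounded_of_one_lt (5 * (A + 1)) (by norm_num : (1 : ℝ) < 8)).imp fun _ => le_of_lt
  obtain ⟨-, hsl⟩ := tilt hμ hbest hfl
  obtain ⟨Ct, hCt, htilt⟩ := hsl j
  obtain ⟨Ck, hK⟩ := hK μ C₀ hμ
  set Ck' := max Ck 0
  refine ⟨j, 2 * (8 ^ j) ^ (n + 1) * (Ck' * (1 + 8 ^ j)) +
    2 * (n * Ct) ^ 2 * (Cg * C₀) * (8 ^ j) ^ (n + 1), fun c hgj ha i hi => ?_⟩
  set T := sim h c
  set g := geo n μ c
  have hg : 0 ≤ g := geo_nonneg hfl c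
  have hd := le_diam hfl c hgj
  have hR := c.pos
  set S := c.R * 8 ^ j with hS
  have hS0 : 0 < S := radius_pos c j
  set Lj := bestPlane (n := n) μ (c.p j) S
  set e : Sp d := T.Q.symm (EuclideanSpace.single i 1)
  have he : e ∈ (top n c).normals := by
    refine ⟨by simp [e], fun l => ?_⟩
    rw [← T.Q.inner_map_map, sim_frame h c, LinearIsometryEquiv.apply_symm_apply,
      EuclideanSpace.inner_single_left, PiLp.single_apply, if_neg, mul_zero]
    intro e'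
    have := congrArg Fin.val e'
    simp only [Fin.val_castLE] at this
    omega
  set ē := perp Lj e with hē
  set u : Sp d := ‖ē‖⁻¹ • ē
  have hu1 : ‖u‖ ≤ 1 := by
    rcases eq_or_ne ē 0 with h0 | h0
    · simp [u, h0]
    · exact (norm_smul_inv_norm h0).le
  have hē1 : |‖ē‖| ≤ 1 := by rw [abs_norm]; exact (norm_perp_le Lj e).trans he.1.le
  have hsplit : ∀ w : Sp d, |⟪e, w⟫| ≤ |‖ē‖ * ⟪u, w⟫| + n * Ct * g * ‖w‖ := fun w => by
    have e1 : e = ‖ē‖ • u + ∑ l, ⟪Lj.frame l, e⟫ • Lj.frame l := by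
      rcases eq_or_ne ē 0 with h0 | h0
      · rw [h0, norm_zero, zero_smul, zero_add, ← sub_eq_zero]; exact h0
      · simp only [u]
        rw [smul_inv_smul₀ (norm_ne_zero_iff.2 h0)]
        exact (sub_add_cancel _ _).symm
    conv_lhs => rw [e1, inner_add_left, real_inner_smul_left, sum_inner]
    refine (abs_add_le _ _).trans (add_le_add le_rfl ?_)
    refine (Finset.abs_sum_le_sum_abs _ _).trans ((Finset.sum_le_sum
      (g := fun _ => Ct * g * ‖w‖) fun l _ => ?_).trans_eq (by simp; ring))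
    rw [real_inner_smul_left, abs_mul, real_inner_comm e]
    exact mul_le_mul (htilt c hd e he l)
      ((abs_real_inner_le_norm _ _).trans_eq (by rw [Lj.ortho.1 l, one_mul])) (abs_nonneg _)
      (by positivity)
  have hpre : ∀ f : Sp d → Sp d → ℝ,
      ∫ y in ball 0 A, ∫ z in ball 0 A, f y z ∂T.push n μ ∂T.push n μ = T.a ^ n * (T.a ^ n *
        ∫ y in ball T.p (A * c.R), ∫ z in ball T.p (A * c.R), f (T.app y) (T.app z) ∂μ ∂μ) :=
    fun f => by
      simp only [Sim.setIntegral_push, smul_eq_mul, T, preimage_ball_zero, integral_const_mul]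
  rw [hpre fun y z => (y i - z i) ^ 2 / ‖y - z‖ ^ (n + 1)]
  have hpt : ∀ y z : Sp d, (T.app y i - T.app z i) ^ 2 / ‖T.app y - T.app z‖ ^ (n + 1) =
      T.a ^ 2 / T.a ^ (n + 1) * (⟪e, y - z⟫ ^ 2 / ‖y - z‖ ^ (n + 1)) := fun y z => by
    have e2 : T.app y i - T.app z i = T.a * ⟪e, y - z⟫ := by
      rw [← PiLp.sub_apply, T.app_sub, PiLp.smul_apply, smul_eq_mul]
      congr 1
      rw [← T.Q.inner_map_map e, LinearIsometryEquiv.apply_symm_apply,
        EuclideanSpace.inner_single_left]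
      simp
    rw [e2, T.norm_app_sub, mul_pow, mul_pow, mul_div_mul_comm]
  simp only [hpt, integral_const_mul]
  have hsub : ball T.p (A * c.R) ⊆ ball (c.p j) (S / 2) := ball_subset h c (hbest _ _ c.pos) hj
  have hsp := energy_split hμ hgrow (c.p j) hS0 measurableSet_ball hsub hu1 hē1
    (show (0 : ℝ) ≤ n * Ct * g by positivity) hsplit
  have hEu : ∫ y in ball (c.p j) (S / 2), ∫ z in ball (c.p j) (S / 2),
      ⟪u, y - z⟫ ^ 2 / ‖y - z‖ ^ (n + 1) ∂μ ∂μ ≤ Ck' * (1 + 8 ^ j) * g ^ 2 * S ^ (n + 1) := by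
    rcases eq_or_ne ē 0 with h0 | h0
    · simp [u, h0]; positivity
    have hun : u ∈ Lj.normals := ⟨norm_smul_inv_norm h0, fun l => by
      rw [real_inner_smul_right, inner_frame_perp, mul_zero]⟩
    have h1 := hK (shift c j) hd u (by simpa [shift] using hun)
    simp only [shift, zero_add, energy, div_le_iff₀ (pow_pos (radius_pos c j) (n + 1))] at h1
    refine h1.trans (mul_le_mul_of_nonneg_right ?_ (by positivity))
    rw [mul_assoc Ck']
    have h2 : geo n μ (shift c j) ^ 2 ≤ 8 ^ j * g ^ 2 := by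
      refine (pow_le_pow_left₀ (geo_nonneg hfl _) (geo_shift_le hfl c j) 2).trans_eq ?_
      rw [mul_pow, ← pow_mul, mul_comm j, pow_mul, Real.sq_sqrt (by norm_num)]
    have h3 : 0 ≤ aT n μ (c.p j) S := aT_nonneg _ hS0.le
    refine mul_le_mul (le_max_left _ _) ?_ (add_nonneg h3 (sq_nonneg _)) (le_max_right _ _)
    unfold shift at h2
    linarith
  have hfac : T.a ^ n * (T.a ^ n * (T.a ^ 2 / T.a ^ (n + 1))) = (c.R ^ (n + 1))⁻¹ := by
    show (c.R⁻¹) ^ n * ((c.R⁻¹) ^ n * ((c.R⁻¹) ^ 2 / (c.R⁻¹) ^ (n + 1))) = _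
    simp only [inv_pow, pow_succ]
    field_simp
  rw [← mul_assoc (T.a ^ n) (T.a ^ 2 / T.a ^ (n + 1)), ← mul_assoc (T.a ^ n), hfac,
    inv_mul_le_iff₀ (by positivity)]
  refine hsp.trans ?_
  calc _ ≤ 2 * (Ck' * (1 + 8 ^ j) * g ^ 2 * S ^ (n + 1)) +
        2 * (n * Ct * g) ^ 2 * (Cg * S * (C₀ * S ^ n)) := by gcongr
    _ = _ := by simp only [hS]; ring

omit [Nonempty (Plane n d)] in
/-- Every normalised test is at most the largest one. -/
lemma le_bT (hμ : Reg n C₀ μ) (hPr : PairSpec n d) (M : ℕ) {p : Sp d} (hp : p ∈ μ.support) {R : ℝ}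
    (hR : 0 < R) {φ : Sp d → Sp d} (hφ : IsTest μ M p R φ) :
    |pair n μ p ((M + 1) * R) φ| / R ^ n ≤ bT n μ M p R := by
  obtain ⟨C, hC, hb⟩ := (hPr μ C₀ hμ).1
  refine le_csSup ⟨C * ((M + 1) / R * ((M + 1) * R) + 1) * ((M + 1) * R) ^ n / R ^ n, ?_⟩
    ⟨φ, hφ, rfl⟩
  rintro _ ⟨ψ, ⟨h1, h2, h3, h4⟩, rfl⟩
  refine div_le_div_of_nonneg_right ((hb p hp _ 1 _ ψ (by positivity) h1 h2 h3 h4).trans_eq ?_)
    (by positivity)
  rw [Real.coe_toNNReal _ (by positivity)]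

include hμ hbest in
/-- **Fixed tests.** -/
theorem test_bound (hPr : PairSpec n d) (c : Chain μ) {A : ℝ} (hA : 1 ≤ A) {L : ℝ≥0} {k : ℕ}
    (hkA : A + L ≤ k) {φ : Sp d → Sp d} (hsupp : ∀ y, A ≤ dist y 0 → φ y = 0)
    (hφ1 : ∀ y, ‖φ y‖ ≤ 1) (hφ : LipschitzWith L φ) (hmean : ∫ y, φ y ∂(sim h c).push n μ = 0) :
    |pair n ((sim h c).push n μ) 0 A φ| ≤ bT n μ k (c.p 0) c.R := by
  set T := sim h c
  have hR := c.pos
  set ψ := fun y => T.Q.symm (φ (T.app y))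
  have hψ : LipschitzWith (L * T.a.toNNReal) ψ := T.lipschitz_comp hφ
  have hψs : ∀ y, A * c.R ≤ dist y T.p → ψ y = 0 := fun y hy => by
    show T.Q.symm (φ (T.app y)) = 0
    rw [hsupp, map_zero]
    rw [← T.app_p, T.dist_app]
    show A ≤ c.R⁻¹ * _
    rw [inv_mul_eq_div, le_div_iff₀ hR]
    exact hy
  have hm : ∫ y, ψ y ∂μ = 0 := by
    show ∫ y, T.Q.symm (φ (T.app y)) ∂μ = 0
    rw [show (∫ y, T.Q.symm (φ (T.app y)) ∂μ) = T.Q.symm (∫ y, φ (T.app y) ∂μ) from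
      T.Q.symm.toLinearIsometry.integral_comp_comm _]
    rw [T.integral_push, smul_eq_zero] at hmean
    rw [hmean.resolve_left (pow_pos T.pos n).ne', map_zero]
  have hψ' : ∀ y, (k + 1) * c.R ≤ dist y (c.p 0) → ψ y = 0 := fun y hy => hψs y (by
    have h2 := dist_sim_p h c (hbest _ _ c.pos)
    have h1 : (A : ℝ) + 0 ≤ k := le_trans (add_le_add le_rfl L.coe_nonneg) hkA
    have h3 := mul_le_mul_of_nonneg_right h1 hR.le
    linarith [dist_triangle_right y (c.p 0) T.p])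
  have hIs : IsTest μ k (c.p 0) c.R ψ := by
    refine ⟨hψ', fun y => by simpa [ψ] using hφ1 (T.app y), hψ.weaken ?_, hm⟩
    rw [← NNReal.coe_le_coe, NNReal.coe_mul, Real.coe_toNNReal _ T.pos.le,
      Real.coe_toNNReal _ (by positivity), div_eq_mul_inv]
    exact mul_le_mul_of_nonneg_right (by linarith) T.pos.le
  have e := T.pair_push (n := n) μ T.p (A * c.R) φ
  rw [T.app_p, show T.a * (A * c.R) = A by show c.R⁻¹ * (A * c.R) = A; field_simp] at e
  rw [e, show pair n μ T.p (A * c.R) (fun y => T.Q.symm (φ (T.app y))) =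
    pair n μ (c.p 0) ((k + 1) * c.R) ψ from
      (hPr μ C₀ hμ).2.1 _ _ _ _ _ ψ (by positivity) (by positivity) hψs hψ' hψ hm,
    abs_mul, abs_of_pos (pow_pos T.pos n), show T.a ^ n = (c.R ^ n)⁻¹ from inv_pow _ _,
    inv_mul_eq_div]
  exact le_bT hμ hPr k (c.mem 0) hR hIs

end Along

end Vale.Agent.P120
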