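import Vale.Agent.P120.Planes

/-!
# P120: from the plane of a ball to the plane of a larger ball

With coefficient one on the normal part of the larger plane, so that the steps along a chain add up.
-/

open MeasureTheory Metric Finset
open scoped RealInnerProductSpace ENNReal NNReal

namespace Vale.Agent.P120

variable {n d : ℕ}

namespace Planes

/-- The linear part of the normal projection. -/
noncomputable def perp (L : Plane n d) (v : Sp d) : Sp d := v - ∑ i, ⟪L.frame i, v⟫ • L.frame i

lemma nrm_eq_perp (L : Plane n d) (y : Sp d) : L.nrm y = perp L (y - L.base) := rfl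

lemma inner_frame_perp (L : Plane n d) (j : Fin n) (v : Sp d) : ⟪L.frame j, perp L v⟫ = 0 := by
  rw [perp, inner_sub_right, L.ortho.inner_right_fintype, sub_self]

lemma norm_perp_le (L : Plane n d) (v : Sp d) : ‖perp L v‖ ≤ ‖v‖ := by
  let P : Plane n d := ⟨0, L.frame, L.ortho⟩
  simpa [P, Plane.nrm, perp] using norm_nrm_le P v

lemma perp_add (L : Plane n d) (v w : Sp d) : perp L (v + w) = perp L v + perp L w := by
  simp only [perp, inner_add_right, add_smul, Finset.sum_add_distrib]
  abel

lemma perp_smul (L : Plane n d) (a : ℝ) (v : Sp d) : perp L (a • v) = a • perp L v := by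
  simp only [perp, real_inner_smul_right, smul_sub, Finset.smul_sum, smul_smul]

lemma perp_sum {ι : Type*} (L : Plane n d) (s : Finset ι) (v : ι → Sp d) :
    perp L (∑ l ∈ s, v l) = ∑ l ∈ s, perp L (v l) := by
  classical
  induction s using Finset.induction_on with
  | empty => simp [perp]
  | insert a s ha ih => rw [sum_insert ha, sum_insert ha, perp_add, ih]

/-- A bound on the pairings with all unit normals bounds the normal projection. -/
lemma norm_perp_le_of (L : Plane n d) (v : Sp d) {b : ℝ} (hb : 0 ≤ b)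
    (h : ∀ e ∈ L.normals, |⟪e, v⟫| ≤ b) : ‖perp L v‖ ≤ b := by
  rcases eq_or_ne (perp L v) 0 with h0 | h0
  · rw [h0, norm_zero]; exact hb
  set w := perp L v with hw
  have hperp : ⟪w, v⟫ = ‖w‖ ^ 2 := by
    have e : v = w + ∑ i, ⟪L.frame i, v⟫ • L.frame i := by simp [hw, perp]
    have h1 : ∀ i, ⟪w, L.frame i⟫ = 0 := fun i =>
      (real_inner_comm _ _).trans (inner_frame_perp L i v)
    conv_lhs => rw [e]
    simp [inner_add_right, inner_sum, real_inner_smul_right, h1]
  have he : ‖w‖⁻¹ • w ∈ L.normals := ⟨norm_smul_inv_norm h0, fun i => by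
    rw [real_inner_smul_right, inner_frame_perp, mul_zero]⟩
  have := h _ he
  rw [real_inner_smul_left, hperp, sq, ← mul_assoc, inv_mul_cancel₀ (norm_ne_zero_iff.2 h0),
    one_mul, abs_norm] at this
  exact this

/-- **One step to a larger plane.** -/
theorem step {C₀ : ℝ} (hC₀ : 1 ≤ C₀) (n d : ℕ) (W : ℝ) (hW : 1 ≤ W) : ∃ C : ℝ, 0 ≤ C ∧
    ∀ (μ : Measure (Sp d)) [IsLocallyFiniteMeasure μ], Reg n C₀ μ →
    ∀ p ∈ μ.support, ∀ (q : Sp d) (R R' : ℝ), 0 < R → ENNReal.ofReal R ≤ Metric.ediam μ.support →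
      dist p q + R ≤ R' → R' ≤ W * R → ∀ (L L' : Plane n d) (f f' : ℝ), 0 ≤ f → 0 ≤ f' →
        dist L.base p ≤ R → defect n μ p R L ≤ f ^ 2 → defect n μ q R' L' ≤ f' ^ 2 →
        (∀ y, ‖L.nrm y‖ ≤ ‖L'.nrm y‖ + C * (f + f') * (R + dist y p)) ∧
          ∀ e ∈ L.normals, ∀ l, |⟪e, L'.frame l⟫| ≤ C * (f + f') := by
  obtain ⟨Cs, hCs0, hCs⟩ := slope_le hC₀ n d
  have h0 : 0 < C₀ := one_pos.trans_le hC₀
  set F := W ^ (n + 2) * 4 * C₀ * 2 ^ n + 1
  have hF : 1 ≤ F := le_add_of_nonneg_left (by positivity)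
  set Y := Cs * (3 * W ^ (n + 2) + 2)
  have hY : 0 ≤ Y := by positivity
  set C := 2 * F + 2 * (n + 1) * (√Y + 1)
  have hC : 0 ≤ C := by positivity
  refine ⟨C, hC, fun μ _ hμ p hp q R R' hR hd hsub hle L L' f f' hf hf' hbase hD hD' => ?_⟩
  have hR' : 0 < R' := lt_of_lt_of_le (by linarith [dist_nonneg (x := p) (y := q)]) hsub
  have hball : ball p R ⊆ ball q R' := fun y hy => mem_ball.2 (by
    linarith [dist_triangle y p q, mem_ball.1 hy])
  have hI' : ∫ y in ball p R, ‖L'.nrm y‖ ^ 2 ∂μ ≤ W ^ (n + 2) * f' ^ 2 * (R ^ n * R ^ 2) := by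
    refine (setIntegral_mono_set (integrableOn_ball ((continuous_nrm L').norm.fun_pow 2) q R')
      (ae_of_all _ fun _ => sq_nonneg _) hball.eventuallyLE).trans ?_
    rw [integral_nrm_eq hR' L', mul_comm (W ^ (n + 2)), mul_assoc]
    refine mul_le_mul hD' ?_ (by positivity) (sq_nonneg _)
    rw [← pow_add, ← pow_add, ← mul_pow]
    exact pow_le_pow_left₀ hR'.le hle _
  have hnrm : ∀ y, ‖L.nrm y‖ ≤ R + dist y p := fun y => (norm_nrm_le L y).trans (by
    rw [← dist_eq_norm]; linarith [dist_triangle y p L.base, dist_comm L.base p])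
  by_cases hfar : ‖L'.nrm p‖ ≤ R
  swap
  · have h1 : 1 ≤ F * f' := far_lower hμ hp hR hd L' hfar (by positivity) hf' hI'
    have h2 : 1 ≤ C * (f + f') := h1.trans (mul_le_mul (by
      simp only [C]; nlinarith [Real.sqrt_nonneg Y, n.cast_nonneg (α := ℝ)]) (by linarith) hf' hC)
    refine ⟨fun y => ?_, fun e he l => ((abs_real_inner_le_norm _ _).trans_eq
      (by rw [he.1, L'.ortho.1 l, one_mul])).trans h2⟩
    have h3 : 0 ≤ R + dist y p := add_nonneg hR.le dist_nonneg
    have := le_mul_of_one_le_left h3 h2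
    linarith [hnrm y, norm_nonneg (L'.nrm y)]
  set P := foot L' p
  have hPb : dist P.base p ≤ R := by simpa [P, foot, dist_eq_norm] using hfar
  have hkey : ∀ e ∈ L.normals, (∀ l, |⟪e, L'.frame l⟫| ≤ √Y * (f + f')) ∧
      |⟪e, P.base - L.base⟫| ≤ √Y * (f + f') * R := fun e he => by
    set a := ⟪e, P.base - L.base⟫
    set u : Fin n → ℝ := fun j => ⟪e, P.frame j⟫
    have hu : ∀ j, |u j| ≤ 1 := fun j =>
      (abs_real_inner_le_norm _ _).trans_eq (by rw [he.1, P.ortho.1 j, one_mul])
    obtain ⟨hu2, ha2⟩ := hCs μ hμ p hp R hR hd P hPb a u hu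
    have hJ : (∫ y in ball p R, (a + ∑ j, u j * tco P j y) ^ 2 ∂μ) / (R ^ n * R ^ 2) +
        defect n μ p R P ≤ (3 * W ^ (n + 2) + 2) * (f + f') ^ 2 := by
      have hP' : defect n μ p R P ≤ W ^ (n + 2) * f' ^ 2 := by
        refine le_of_mul_le_mul_right ?_ (show 0 < R ^ n * R ^ 2 by positivity)
        rw [← integral_nrm_eq hR]
        simp only [P, nrm_foot]
        exact hI'
      have hi : ∀ Z : Plane n d, IntegrableOn (fun y => 2 * ‖Z.nrm y‖ ^ 2) (ball p R) μ :=
        fun Z => (integrableOn_ball ((continuous_nrm Z).norm.fun_pow 2) p R).const_mul 2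
      have h1 := setIntegral_mono_on (μ := μ) (integrableOn_ball
        ((continuous_const.add (continuous_finsetSum univ fun j _ =>
          (continuous_tco P j).const_mul (u j))).fun_pow 2) p R)
        ((hi L).add (hi P)) measurableSet_ball fun y _ => pair_pointwise P L he y
      simp only [Pi.add_apply] at h1
      rw [integral_add (hi L) (hi P), integral_const_mul, integral_const_mul,
        integral_nrm_eq hR L, integral_nrm_eq hR P] at h1
      have h2 : (∫ y in ball p R, (a + ∑ j, u j * tco P j y) ^ 2 ∂μ) / (R ^ n * R ^ 2) ≤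
          2 * defect n μ p R L + 2 * defect n μ p R P := by
        rw [div_le_iff₀ (by positivity)]
        exact h1.trans_eq (by ring)
      nlinarith [mul_nonneg hf hf', pow_nonneg (zero_le_one.trans hW) (n + 2),
        mul_nonneg (pow_nonneg (zero_le_one.trans hW) (n + 2)) (mul_nonneg hf hf'),
        mul_nonneg (pow_nonneg (zero_le_one.trans hW) (n + 2)) (sq_nonneg f)]
    have hroot : ∀ x : ℝ, x ^ 2 ≤ Y * (f + f') ^ 2 → |x| ≤ √Y * (f + f') := fun x hx =>
      abs_le_of_sq_le_sq (by rwa [mul_pow, Real.sq_sqrt hY]) (by positivity)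
    refine ⟨fun l => hroot _ ?_, ?_⟩
    · exact (hu2 l).trans ((mul_le_mul_of_nonneg_left hJ hCs0).trans_eq (by ring))
    · have h8 := hroot (a / R) (by
        rw [div_pow, div_le_iff₀ (by positivity)]
        exact (ha2.trans (mul_le_mul_of_nonneg_right (mul_le_mul_of_nonneg_left hJ hCs0)
          (sq_nonneg R))).trans_eq (by ring))
      rwa [abs_div, abs_of_pos hR, div_le_iff₀ hR] at h8
  have hCY : √Y ≤ C := by
    simp only [C]; nlinarith [Real.sqrt_nonneg Y, n.cast_nonneg (α := ℝ)]
  refine ⟨fun y => ?_, fun e he l => ((hkey e he).1 l).trans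
    (mul_le_mul_of_nonneg_right hCY (by positivity))⟩
  have e1 : L.nrm y = perp L (L'.nrm y) + perp L (P.base - L.base) +
      ∑ l, tco P l y • perp L (L'.frame l) := by
    have h1 : y - L.base = L'.nrm y + (P.base - L.base) + ∑ l, tco P l y • L'.frame l := by
      have := decomp P y
      simp only [P, nrm_foot] at this ⊢
      have e2 : ∑ l, tco (foot L' p) l y • L'.frame l =
          ∑ l, tco (foot L' p) l y • (foot L' p).frame l := rfl
      rw [e2]
      linear_combination (norm := module) this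
    rw [nrm_eq_perp, h1, perp_add, perp_add, perp_sum]
    simp only [perp_smul]
  have ht : ∀ l, |tco P l y| ≤ R + dist y p := fun l => (abs_tco_le P l y).trans (by
    rw [← dist_eq_norm]; linarith [dist_triangle y p P.base, dist_comm P.base p])
  have hff : 0 ≤ f + f' := add_nonneg hf hf'
  have hRy : 0 ≤ R + dist y p := add_nonneg hR.le dist_nonneg
  have hb : ‖perp L (P.base - L.base)‖ ≤ √Y * (f + f') * (R + dist y p) :=
    (norm_perp_le_of L _ (by positivity) fun e he => (hkey e he).2).trans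
      (mul_le_mul_of_nonneg_left (le_add_of_nonneg_right dist_nonneg) (by positivity))
  have hsum : ‖∑ l, tco P l y • perp L (L'.frame l)‖ ≤
      n * (√Y * (f + f') * (R + dist y p)) := by
    refine (norm_sum_le _ _).trans ((sum_le_sum fun l _ => ?_).trans_eq
      (by rw [sum_const, card_univ, Fintype.card_fin, nsmul_eq_mul]))
    rw [norm_smul, Real.norm_eq_abs, mul_comm (√Y * (f + f'))]
    exact mul_le_mul (ht l) (norm_perp_le_of L _ (by positivity) fun e he => (hkey e he).1 l)
      (norm_nonneg _) hRy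
  rw [e1]
  refine ((norm_add_le _ _).trans (add_le_add (norm_add_le _ _) le_rfl)).trans ?_
  have h9 : (n + 1) * (√Y * (f + f') * (R + dist y p)) ≤ C * (f + f') * (R + dist y p) := by
    have h := mul_le_mul_of_nonneg_right (show ((n : ℝ) + 1) * √Y ≤ C by
      simp only [C]; nlinarith [Real.sqrt_nonneg Y, n.cast_nonneg (α := ℝ)]) (mul_nonneg hff hRy)
    linarith
  linarith [norm_perp_le L (L'.nrm y)]

end Planes

end Vale.Agent.P120
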