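import Mathlib.Analysis.SpecificLimits.Basic
import Mathlib.Topology.Algebra.InfiniteSum.Real
import Mathlib.Topology.Algebra.InfiniteSum.NatInt
import Vale.Agent.P120.Improve.Scale.Step

/-!
# P120: the planes along a chain, against its geometric sum
-/

open MeasureTheory Metric Finset
open scoped RealInnerProductSpace ENNReal NNReal

namespace Vale.Agent.P120

variable {n d : ℕ} {μ : Measure (Sp d)}

namespace Along

/-- The chain without its first `j` balls. -/
noncomputable def shift (c : Chain μ) (j : ℕ) : Chain μ where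
  p i := c.p (i + j)
  R := c.R * 8 ^ j
  pos := mul_pos c.pos (pow_pos (by norm_num) j)
  mem i := c.mem (i + j)
  near i := by
    rw [show i + 1 + j = i + j + 1 by omega, mul_assoc c.R, ← pow_add, add_comm j i]
    exact c.near (i + j)

lemma radius_pos (c : Chain μ) (j : ℕ) : 0 < c.R * 8 ^ j := mul_pos c.pos (by positivity)

lemma dist_le (c : Chain μ) {i j : ℕ} (hij : i ≤ j) :
    dist (c.p i) (c.p j) ≤ 2 / 7 * (c.R * 8 ^ j - c.R * 8 ^ i) := by
  induction j, hij using Nat.le_induction with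
  | base => simp
  | succ j _ ih =>
    refine ((dist_triangle _ (c.p j) _).trans (add_le_add ih (c.near j))).trans (le_of_eq ?_)
    ring

lemma dist_zero_le (c : Chain μ) (j : ℕ) :
    dist (c.p 0) (c.p j) ≤ 2 / 7 * (c.R * 8 ^ j - c.R) := by
  simpa using dist_le c (Nat.zero_le j)

lemma sqrt_eight_pow (j : ℕ) : (√(8 : ℝ))⁻¹ ^ j * √8 ^ j = 1 := by
  rw [← mul_pow, inv_mul_cancel₀ (by positivity), one_pow]

section Geo

variable {Cb : ℝ} (hfl : ∀ p ∈ μ.support, ∀ R : ℝ, 0 < R →
  0 ≤ flatness n μ p R ∧ flatness n μ p R ≤ Cb)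

include hfl

lemma summable_geo (c : Chain μ) :
    Summable fun j : ℕ => (√(8 : ℝ))⁻¹ ^ j * flatness n μ (c.p j) (c.R * 8 ^ j) :=
  Summable.of_nonneg_of_le
    (fun j => mul_nonneg (by positivity) (hfl _ (c.mem j) _ (radius_pos c j)).1)
    (fun j => mul_le_mul_of_nonneg_left (hfl _ (c.mem j) _ (radius_pos c j)).2 (by positivity))
    ((summable_geometric_of_lt_one (by positivity)
      (inv_lt_one_of_one_lt₀ (Real.lt_sqrt_of_sq_lt (by norm_num)))).mul_right Cb)

lemma flat_le_geo (c : Chain μ) (j : ℕ) :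
    flatness n μ (c.p j) (c.R * 8 ^ j) ≤ √8 ^ j * geo n μ c := by
  have h : (√(8 : ℝ))⁻¹ ^ j * flatness n μ (c.p j) (c.R * 8 ^ j) ≤ geo n μ c :=
    (summable_geo hfl c).le_tsum j
    fun i _ => mul_nonneg (by positivity) (hfl _ (c.mem i) _ (radius_pos c i)).1
  calc _ = √8 ^ j * ((√(8 : ℝ))⁻¹ ^ j * flatness n μ (c.p j) (c.R * 8 ^ j)) := by
        rw [← mul_assoc, mul_comm (√8 ^ j), sqrt_eight_pow, one_mul]
    _ ≤ _ := mul_le_mul_of_nonneg_left h (by positivity)

lemma le_diam (c : Chain μ) {j : ℕ} (h : √8 ^ j * geo n μ c < 1) :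
    ENNReal.ofReal (c.R * 8 ^ j) ≤ Metric.ediam μ.support := by
  by_contra hd
  have := flat_le_geo hfl c j
  rw [flatness, if_neg hd] at this
  linarith

lemma geo_nonneg (c : Chain μ) : 0 ≤ geo n μ c :=
  tsum_nonneg fun j => mul_nonneg (by positivity) (hfl _ (c.mem j) _ (radius_pos c j)).1

lemma geo_shift_le (c : Chain μ) (j : ℕ) : geo n μ (shift c j) ≤ √8 ^ j * geo n μ c := by
  set g := fun i : ℕ => (√(8 : ℝ))⁻¹ ^ i * flatness n μ (c.p i) (c.R * 8 ^ i)
  have hg : Summable g := summable_geo hfl c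
  have h1 : ∑' i, g (i + j) ≤ geo n μ c := by
    rw [show geo n μ c = ∑' i, g i from rfl, ← hg.sum_add_tsum_nat_add j]
    exact le_add_of_nonneg_left (sum_nonneg fun i _ =>
      mul_nonneg (by positivity) (hfl _ (c.mem i) _ (radius_pos c i)).1)
  have h2 : geo n μ (shift c j) = √8 ^ j * ∑' i, g (i + j) := by
    rw [geo, ← tsum_mul_left]
    refine tsum_congr fun i => ?_
    simp only [shift, g, mul_assoc c.R, ← pow_add, add_comm j i, ← mul_assoc]
    congr 1
    rw [pow_add, mul_comm, mul_assoc, sqrt_eight_pow, mul_one]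
  rw [h2]
  exact mul_le_mul_of_nonneg_left h1 (by positivity)

end Geo

variable [IsLocallyFiniteMeasure μ] [Nonempty (Plane n d)]

lemma defect_best_le {p : Sp d} {R : ℝ} (hR : 0 < R)
    (hb : IsBest n μ p R (bestPlane (n := n) μ p R))
    (hd : ENNReal.ofReal R ≤ Metric.ediam μ.support) :
    defect n μ p R (bestPlane (n := n) μ p R) = flatness n μ p R ^ 2 := by
  rw [Planes.flatness_eq hR hb hd, Real.sq_sqrt (Planes.defect_nonneg μ p hR _)]

/-- The planes of a chain below the diameter against the first one. -/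
theorem tilt {C₀ : ℝ} (hμ : Reg n C₀ μ)
    (hbest : ∀ (p : Sp d) (R : ℝ), 0 < R → IsBest n μ p R (bestPlane (n := n) μ p R))
    {Cb : ℝ} (hfl : ∀ p ∈ μ.support, ∀ R : ℝ, 0 < R →
      0 ≤ flatness n μ p R ∧ flatness n μ p R ≤ Cb) :
    (∃ C : ℝ, 0 ≤ C ∧ ∀ (c : Chain μ) (j : ℕ),
      ENNReal.ofReal (c.R * 8 ^ j) ≤ Metric.ediam μ.support → ∀ y ∈ ball (c.p j) (c.R * 8 ^ j),
      ‖(bestPlane (n := n) μ (c.p 0) c.R).nrm y‖ ≤
        ‖(bestPlane (n := n) μ (c.p j) (c.R * 8 ^ j)).nrm y‖ +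
          C * (√8 ^ j * geo n μ c) * (c.R * 8 ^ j)) ∧
    ∀ j : ℕ, ∃ C : ℝ, 0 ≤ C ∧ ∀ c : Chain μ,
      ENNReal.ofReal (c.R * 8 ^ j) ≤ Metric.ediam μ.support →
      ∀ e ∈ (bestPlane (n := n) μ (c.p 0) c.R).normals, ∀ l,
        |⟪e, (bestPlane (n := n) μ (c.p j) (c.R * 8 ^ j)).frame l⟫| ≤ C * geo n μ c := by
  refine ⟨?_, fun j => ?_⟩
  · obtain ⟨C, hC, hstep⟩ := Planes.step hμ.one_le n d 8 (by norm_num)
    refine ⟨6 * C, by positivity, fun c j hd y hy => ?_⟩
    set g := geo n μ c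
    have hg : 0 ≤ g := geo_nonneg hfl c
    set L := fun i : ℕ => bestPlane (n := n) μ (c.p i) (c.R * 8 ^ i)
    set S := c.R * 8 ^ j
    have hdi : ∀ i ≤ j, ENNReal.ofReal (c.R * 8 ^ i) ≤ Metric.ediam μ.support := fun i hi =>
      (ENNReal.ofReal_le_ofReal (mul_le_mul_of_nonneg_left
        (pow_le_pow_right₀ (by norm_num) hi) c.pos.le)).trans hd
    have key : ∀ i ≤ j, ‖(L 0).nrm y‖ ≤ ‖(L i).nrm y‖ + 6 * C * (√8 ^ i * g) * S := by
      intro i
      induction i with
      | zero => intro _; have := radius_pos c j; exact le_add_of_nonneg_right (by positivity)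
      | succ i ih =>
        intro hi
        have h := (hstep μ hμ (c.p i) (c.mem i) (c.p (i + 1)) (c.R * 8 ^ i) (c.R * 8 ^ (i + 1))
          (radius_pos c i) (hdi i (by omega))
          (by rw [pow_succ]; linarith [c.near i, radius_pos c i]) (le_of_eq (by ring)) (L i)
          (L (i + 1)) (√8 ^ i * g) (√8 ^ (i + 1) * g) (by positivity) (by positivity)
          (hbest _ _ (radius_pos c i)).1
          (by rw [defect_best_le (radius_pos c i) (hbest _ _ (radius_pos c i)) (hdi i (by omega))]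
              exact pow_le_pow_left₀ (hfl _ (c.mem i) _ (radius_pos c i)).1 (flat_le_geo hfl c i) 2)
          (by rw [defect_best_le (radius_pos c (i + 1)) (hbest _ _ (radius_pos c (i + 1)))
                (hdi _ hi)]
              exact pow_le_pow_left₀ (hfl _ (c.mem (i + 1)) _ (radius_pos c (i + 1))).1
                (flat_le_geo hfl c (i + 1)) 2)).1 y
        have hdy : c.R * 8 ^ i + dist y (c.p i) ≤ 2 * S := by
          have h1 := dist_le c (show i ≤ j by omega)
          have h2 : c.R * 8 ^ i ≤ S :=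
            mul_le_mul_of_nonneg_left (pow_le_pow_right₀ (by norm_num) (by omega)) c.pos.le
          linarith [dist_triangle y (c.p j) (c.p i), mem_ball.1 hy, dist_comm (c.p j) (c.p i),
            radius_pos c i]
        have h8 : √(8:ℝ) ^ (i + 1) = √8 ^ i * √8 := pow_succ _ _
        have h8' : (2 : ℝ) ≤ √8 := Real.le_sqrt_of_sq_le (by norm_num)
        have h3 : C * (√8 ^ i * g + √8 ^ (i + 1) * g) * (c.R * 8 ^ i + dist y (c.p i)) ≤
            C * (√8 ^ i * g + √8 ^ (i + 1) * g) * (2 * S) :=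
          mul_le_mul_of_nonneg_left hdy (by positivity)
        have h4 : C * (√8 ^ i * g + √8 ^ (i + 1) * g) * (2 * S) + 6 * C * (√8 ^ i * g) * S ≤
            6 * C * (√8 ^ (i + 1) * g) * S := by
          have : 0 ≤ C * (√8 ^ i * g) * S := by have := radius_pos c j; positivity
          rw [h8]
          nlinarith
        linarith [ih (by omega)]
    simpa [L] using key j le_rfl
  · obtain ⟨C, hC, hstep⟩ := Planes.step hμ.one_le n d (8 ^ j) (one_le_pow₀ (by norm_num))
    refine ⟨C * (1 + √8 ^ j), by positivity, fun c hd e he l => ?_⟩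
    have h0 : ENNReal.ofReal c.R ≤ Metric.ediam μ.support :=
      (ENNReal.ofReal_le_ofReal (le_mul_of_one_le_right c.pos.le (one_le_pow₀ (by norm_num)))).trans hd
    have hf0 := flat_le_geo hfl c 0
    rw [pow_zero, pow_zero, mul_one, one_mul] at hf0
    have h := (hstep μ hμ (c.p 0) (c.mem 0) (c.p j) c.R (c.R * 8 ^ j) c.pos h0
      (by
        have h1 := dist_zero_le c j
        have h2 : c.R ≤ c.R * 8 ^ j := le_mul_of_one_le_right c.pos.le (one_le_pow₀ (by norm_num))
        linarith)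
      (le_of_eq (mul_comm _ _)) _ _ (geo n μ c) (√8 ^ j * geo n μ c) (geo_nonneg hfl c)
      (mul_nonneg (by positivity) (geo_nonneg hfl c)) (hbest _ _ c.pos).1
      (by rw [defect_best_le c.pos (hbest _ _ c.pos) h0]
          exact pow_le_pow_left₀ (hfl _ (c.mem 0) _ c.pos).1 hf0 2)
      (by rw [defect_best_le (radius_pos c j) (hbest _ _ (radius_pos c j)) hd]
          exact pow_le_pow_left₀ (hfl _ (c.mem j) _ (radius_pos c j)).1 (flat_le_geo hfl c j) 2)).2
      e he l
    exact h.trans_eq (by ring)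

end Along

end Vale.Agent.P120
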