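import Mathlib.Algebra.Order.Archimedean.Basic
import Mathlib.MeasureTheory.Integral.Prod
import Vale.Agent.P120.Improve.Similarity
import Vale.Agent.P120.Improve.Thin
import Vale.Agent.P120.Improve.Scale.Along

/-!
# P120: a chain seen from its first ball

The similarity that takes the best plane of the first ball to the plane of the first coordinates and
its radius to one, and what the chain gives for the measure seen through it.
-/

open MeasureTheory Metric Filter Topology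
open scoped RealInnerProductSpace ENNReal NNReal

namespace Vale.Agent.P120

variable {n d : ℕ} {μ : Measure (Sp d)} [Nonempty (Plane n d)]

namespace Along

open Planes

variable (n) in
/-- The best plane of the first ball. -/
noncomputable def top (c : Chain μ) : Plane n d := bestPlane (n := n) μ (c.p 0) c.R

/-- The similarity of a chain. -/
noncomputable def sim (h : n ≤ d) (c : Chain μ) : Sim d where
  a := c.R⁻¹
  pos := inv_pos.2 c.pos
  p := c.p 0 - (top n c).nrm (c.p 0)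
  Q := (Sim.exists_rotation h (top n c)).choose

variable (h : n ≤ d) (c : Chain μ)

lemma sim_frame : ∀ i : Fin n,
    (sim h c).Q ((top n c).frame i) = EuclideanSpace.single (Fin.castLE h i) 1 :=
  (Sim.exists_rotation h (top n c)).choose_spec

lemma nrm_sim_p : (top n c).nrm (sim h c).p = 0 := by
  set L := top n c
  have e : (c.p 0 - L.nrm (c.p 0)) - L.base = ∑ l, tco L l (c.p 0) • L.frame l := by
    linear_combination (norm := module) decomp L (c.p 0)
  show perp L ((c.p 0 - L.nrm (c.p 0)) - L.base) = 0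
  rw [e, perp_sum]
  refine Finset.sum_eq_zero fun l _ => ?_
  rw [perp_smul, perp, Finset.sum_eq_single l]
  · rw [orthonormal_iff_ite.1 L.ortho l l, if_pos rfl, one_smul, sub_self, smul_zero]
  · intro i _ hi; rw [orthonormal_iff_ite.1 L.ortho i l, if_neg hi, zero_smul]
  · simp

lemma norm_nPart_app (y : Sp d) :
    ‖nPart n ((sim h c).app y)‖ = c.R⁻¹ * ‖(top n c).nrm y‖ := by
  rw [(sim h c).nPart_app h (sim_frame h c) (nrm_sim_p h c), norm_smul,
    LinearIsometryEquiv.norm_map, Real.norm_of_nonneg (sim h c).pos.le]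
  rfl

lemma dist_sim_p (hb : IsBest n μ (c.p 0) c.R (top n c)) : dist (c.p 0) (sim h c).p ≤ c.R := by
  rw [dist_eq_norm, show c.p 0 - (sim h c).p = (top n c).nrm (c.p 0) from sub_sub_cancel _ _]
  refine (norm_nrm_le _ _).trans ?_
  rw [← dist_eq_norm, dist_comm]
  exact hb.1

lemma preimage_ball_zero (A : ℝ) :
    (sim h c).app ⁻¹' ball 0 A = ball (sim h c).p (A * c.R) := by
  rw [Sim.preimage_ball']
  congr 1
  · simp [Sim.inv]
  · simp [sim, div_eq_mul_inv]

lemma ball_subset (hb : IsBest n μ (c.p 0) c.R (top n c)) {A : ℝ} {j : ℕ}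
    (hj : 5 * (A + 1) ≤ 8 ^ j) :
    ball (sim h c).p (A * c.R) ⊆ ball (c.p j) (c.R * 8 ^ j / 2) := by
  refine ball_subset_ball' ?_
  have h1 := dist_zero_le c j
  have h2 := dist_sim_p h c hb
  have h3 := dist_triangle_left (sim h c).p (c.p j) (c.p 0)
  have h4 := mul_le_mul_of_nonneg_left hj c.pos.le
  linarith [c.pos, radius_pos c j]

variable [IsLocallyFiniteMeasure μ] {C₀ : ℝ} (hμ : Reg n C₀ μ)
  (hbest : ∀ (p : Sp d) (R : ℝ), 0 < R → IsBest n μ p R (bestPlane (n := n) μ p R))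
  {Cb : ℝ} (hfl : ∀ p ∈ μ.support, ∀ R : ℝ, 0 < R →
    0 ≤ flatness n μ p R ∧ flatness n μ p R ≤ Cb)

include hμ hbest hfl

/-- The heights grow like the power `3 / 2`. -/
theorem moment : ∃ D : ℝ, ∀ (c : Chain μ) (A : ℝ), 1 ≤ A →
    ∫ y in ball 0 A, ‖nPart n y‖ ^ 2 ∂(sim h c).push n μ ≤ D * A ^ (n + 3) * geo n μ c ^ 2 := by
  obtain ⟨⟨C, hC, htilt⟩, -⟩ := tilt hμ hbest hfl
  have hC0 : 0 ≤ C₀ := zero_le_one.trans hμ.one_le
  refine ⟨(2 + 2 * C ^ 2 * C₀) * 80 ^ (n + 3) + 80 * C₀, fun c A hA => ?_⟩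
  set g := geo n μ c
  have hg : 0 ≤ g := geo_nonneg hfl c
  have hA0 : 0 < A := by linarith
  obtain ⟨j', hj1, hj2⟩ := exists_nat_pow_near (show (1 : ℝ) ≤ 5 * (A + 1) by linarith)
    (show (1 : ℝ) < 8 by norm_num)
  set j := j' + 1
  have hj8 : (8 : ℝ) ^ j ≤ 80 * A := by rw [pow_succ]; linarith
  have hP : 0 ≤ (2 + 2 * C ^ 2 * C₀) * 80 ^ (n + 3) := by positivity
  have hA3 : 0 ≤ A ^ (n + 3) * g ^ 2 := by positivity
  by_cases hd : ENNReal.ofReal (c.R * 8 ^ j) ≤ Metric.ediam μ.support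
  swap
  · have h1 : 1 ≤ √8 ^ j * g := by
      by_contra hlt
      exact hd (le_diam hfl c (not_le.1 hlt))
    have h2 : 1 ≤ (8 : ℝ) ^ j * g ^ 2 := by
      calc (1 : ℝ) = 1 ^ 2 := (one_pow 2).symm
        _ ≤ (√8 ^ j * g) ^ 2 := pow_le_pow_left₀ zero_le_one h1 2
        _ = _ := by rw [mul_pow, ← pow_mul, mul_comm j, pow_mul, Real.sq_sqrt (by norm_num)]
    have hreg := (sim h c).reg_push (n := n) hμ
    have h3 : ∫ y in ball 0 A, ‖nPart n y‖ ^ 2 ∂(sim h c).push n μ ≤ A ^ 2 * (C₀ * A ^ n) := by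
      refine (le_trans (le_abs_self _) (norm_setIntegral_le_of_norm_le_const
        (f := fun y => ‖nPart n y‖ ^ 2) (C := A ^ 2) (hreg.fin _ _).lt_top fun y hy => ?_)).trans
        (mul_le_mul_of_nonneg_left (hreg.upper _ _ hA0) (sq_nonneg _))
      rw [Real.norm_of_nonneg (sq_nonneg _)]
      exact pow_le_pow_left₀ (norm_nonneg _)
        ((norm_nPart_le h y).trans (mem_ball_zero_iff.1 hy).le) 2
    refine h3.trans ?_
    have h4 : A ^ 2 * (C₀ * A ^ n) ≤ 80 * C₀ * (A ^ (n + 3) * g ^ 2) := by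
      refine (le_mul_of_one_le_right (by positivity) (h2.trans
        (mul_le_mul_of_nonneg_right hj8 (sq_nonneg g)))).trans_eq ?_
      ring
    nlinarith [mul_nonneg hP hA3]
  set S := c.R * 8 ^ j with hS
  have hS0 : 0 < S := radius_pos c j
  set Lj := bestPlane (n := n) μ (c.p j) S
  have hsub : ball (sim h c).p (A * c.R) ⊆ ball (c.p j) S :=
    (ball_subset h c (hbest _ _ c.pos) (show 5 * (A + 1) ≤ 8 ^ j from hj2.le)).trans
      (ball_subset_ball (by linarith))
  have hR := c.pos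
  have hbound : ∫ y in ball (sim h c).p (A * c.R), ‖(top n c).nrm y‖ ^ 2 ∂μ ≤
      (2 + 2 * C ^ 2 * C₀) * (√8 ^ j * g) ^ 2 * (S ^ n * S ^ 2) := by
    refine (setIntegral_mono_set (Planes.integrableOn_ball ((continuous_nrm _).norm.fun_pow 2) _ _)
      (ae_of_all _ fun _ => sq_nonneg _) hsub.eventuallyLE).trans ?_
    set K := C * (√8 ^ j * g) * S
    have hK : 0 ≤ K := by positivity
    have hi : IntegrableOn (fun y => 2 * ‖Lj.nrm y‖ ^ 2) (ball (c.p j) S) μ :=
      (Planes.integrableOn_ball ((continuous_nrm Lj).norm.fun_pow 2) _ _).const_mul 2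
    have hm := setIntegral_mono_on
      (Planes.integrableOn_ball ((continuous_nrm (top n c)).norm.fun_pow 2) (c.p j) S)
      (hi.add (integrableOn_const (hμ.fin (c.p j) S) (C := 2 * K ^ 2))) measurableSet_ball
      fun y hy => (pow_le_pow_left₀ (norm_nonneg _) (htilt c j hd y hy) 2).trans (by
        simp only [Pi.add_apply]
        nlinarith [sq_nonneg (‖Lj.nrm y‖ - K)])
    simp only [Pi.add_apply] at hm
    rw [integral_add hi (integrableOn_const (hμ.fin (c.p j) S)), integral_const_mul,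
      setIntegral_const, smul_eq_mul, integral_nrm_eq hS0 Lj] at hm
    have hdef : defect n μ (c.p j) S Lj ≤ (√8 ^ j * g) ^ 2 := by
      rw [defect_best_le hS0 (hbest _ _ hS0) hd]
      exact pow_le_pow_left₀ (hfl _ (c.mem j) _ hS0).1 (flat_le_geo hfl c j) 2
    have h5 := mul_le_mul_of_nonneg_right hdef (show 0 ≤ S ^ n * S ^ 2 by positivity)
    have h6 := mul_le_mul_of_nonneg_right (hμ.upper (c.p j) S hS0)
      (show 0 ≤ 2 * K ^ 2 by positivity)
    calc _ ≤ 2 * (defect n μ (c.p j) S Lj * (S ^ n * S ^ 2)) +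
          μ.real (ball (c.p j) S) * (2 * K ^ 2) := hm
      _ ≤ 2 * ((√8 ^ j * g) ^ 2 * (S ^ n * S ^ 2)) + C₀ * S ^ n * (2 * K ^ 2) := by linarith
      _ = _ := by simp only [K]; ring
  rw [Sim.setIntegral_push, preimage_ball_zero]
  simp only [norm_nPart_app, mul_pow, integral_const_mul, smul_eq_mul]
  have e1 : (√8 ^ j * g) ^ 2 * (S ^ n * S ^ 2) =
      (8 ^ j) ^ (n + 3) * g ^ 2 * (c.R ^ n * c.R ^ 2) := by
    rw [mul_pow, ← pow_mul (√8), mul_comm j 2, pow_mul, Real.sq_sqrt (by norm_num)]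
    ring
  rw [mul_assoc (2 + _), e1] at hbound
  have h7 : (c.R⁻¹) ^ n * ((c.R⁻¹) ^ 2 *
      ∫ y in ball (sim h c).p (A * c.R), ‖(top n c).nrm y‖ ^ 2 ∂μ) ≤
      (2 + 2 * C ^ 2 * C₀) * ((8 ^ j) ^ (n + 3) * g ^ 2) := by
    rw [← mul_assoc, inv_pow, inv_pow, ← mul_inv, inv_mul_le_iff₀ (by positivity)]
    exact hbound.trans_eq (by ring)
  refine h7.trans ?_
  have h8 : ((8 : ℝ) ^ j) ^ (n + 3) ≤ (80 * A) ^ (n + 3) := pow_le_pow_left₀ (by positivity) hj8 _
  rw [mul_pow] at h8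
  nlinarith [mul_le_mul_of_nonneg_left (mul_le_mul_of_nonneg_right h8 (sq_nonneg g))
    (show 0 ≤ 2 + 2 * C ^ 2 * C₀ by positivity), mul_nonneg hC0 hA3]

/-- The first centre is near the plane. -/
theorem centre {δ : ℝ} (hδ : 0 < δ) : ∃ γ : ℝ, 0 < γ ∧ ∀ c : Chain μ, geo n μ c < γ →
    ‖(sim h c).app (c.p 0)‖ ≤ δ := by
  have hC0 : 0 < C₀ := one_pos.trans_le hμ.one_le
  set s := min δ 1 / 2
  have hs : 0 < s := by positivity
  have hs1 : s ≤ 1 := by simp only [s]; linarith [min_le_right δ 1]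
  refine ⟨min 1 √(s ^ 2 * (C₀⁻¹ * s ^ n)), lt_min one_pos (by positivity), fun c hc => ?_⟩
  rw [lt_min_iff] at hc
  have hd : ENNReal.ofReal c.R ≤ Metric.ediam μ.support := by
    simpa using le_diam hfl c (j := 0) (by simpa using hc.1)
  set L := top n c
  have happ : ‖(sim h c).app (c.p 0)‖ = c.R⁻¹ * ‖L.nrm (c.p 0)‖ := by
    rw [Sim.app, norm_smul, LinearIsometryEquiv.norm_map, Real.norm_of_nonneg (sim h c).pos.le,
      show c.p 0 - (sim h c).p = L.nrm (c.p 0) from sub_sub_cancel _ _]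
    rfl
  rw [happ]
  by_contra hlt
  rw [not_le, inv_mul_eq_div, lt_div_iff₀ c.pos] at hlt
  have hR := c.pos
  have hlow : ∀ y ∈ ball (c.p 0) (s * c.R), (s * c.R) ^ 2 ≤ ‖L.nrm y‖ ^ 2 := fun y hy => by
    refine pow_le_pow_left₀ (by positivity) ?_ 2
    have e : L.nrm (c.p 0) = L.nrm y + perp L (c.p 0 - y) := by
      rw [nrm_eq_perp, nrm_eq_perp, ← perp_add]
      congr 1
      abel
    have h1 := e ▸ norm_add_le (L.nrm y) (perp L (c.p 0 - y))
    have h2 : ‖perp L (c.p 0 - y)‖ ≤ s * c.R := (norm_perp_le L _).trans (by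
      rw [← dist_eq_norm, dist_comm]; exact (mem_ball.1 hy).le)
    have h3 : 2 * s * c.R ≤ δ * c.R :=
      mul_le_mul_of_nonneg_right (by simp only [s]; linarith [min_le_left δ 1]) hR.le
    linarith
  have hdef : defect n μ (c.p 0) c.R L ≤ geo n μ c ^ 2 := by
    show defect n μ (c.p 0) c.R (bestPlane (n := n) μ (c.p 0) c.R) ≤ _
    rw [defect_best_le c.pos (hbest _ _ c.pos) hd]
    refine pow_le_pow_left₀ (hfl _ (c.mem 0) _ c.pos).1 ?_ 2
    simpa using flat_le_geo hfl c 0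
  have h4 := (setIntegral_mono_on (integrableOn_const (hμ.fin _ (s * c.R)) (C := (s * c.R) ^ 2))
    (Planes.integrableOn_ball ((continuous_nrm L).norm.fun_pow 2) _ _) measurableSet_ball hlow).trans
    ((setIntegral_mono_set (Planes.integrableOn_ball ((continuous_nrm L).norm.fun_pow 2) (c.p 0) c.R)
      (ae_of_all _ fun _ => sq_nonneg _)
      (ball_subset_ball (mul_le_of_le_one_left hR.le hs1)).eventuallyLE))
  rw [setIntegral_const, smul_eq_mul, integral_nrm_eq hR] at h4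
  have h5 := hμ.lower (c.p 0) (c.mem 0) (s * c.R) (by positivity)
    ((ENNReal.ofReal_le_ofReal (mul_le_of_le_one_left hR.le hs1)).trans hd)
  have h6 : geo n μ c ^ 2 < s ^ 2 * (C₀⁻¹ * s ^ n) :=
    (Real.lt_sqrt (geo_nonneg hfl c)).1 hc.2
  have h7 : 0 < c.R ^ n * c.R ^ 2 := by positivity
  have h8 := (mul_le_mul_of_nonneg_right h5 (sq_nonneg (s * c.R))).trans
    (h4.trans (mul_le_mul_of_nonneg_right hdef h7.le))
  have h9 := mul_lt_mul_of_pos_right h6 h7
  rw [mul_pow, mul_pow] at h8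
  linarith

end Along

end Vale.Agent.P120
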